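import Mathlib

open scoped ComplexConjugate
open Matrix

namespace Vale.Agent.Results.P355.FieldOfDefinition

noncomputable section

abbrev H6 : Type := EuclideanSpace ℂ (Fin 6)

def MutuallyUnbiased (B C : OrthonormalBasis (Fin 6) ℂ H6) : Prop :=
  ∀ i j : Fin 6, ‖inner ℂ (B i) (C j)‖ ^ 2 = (1 : ℝ) / 6

def IsMUBFamily {m : ℕ} (B : Fin m → OrthonormalBasis (Fin 6) ℂ H6) : Prop :=
  ∀ a b : Fin m, a ≠ b → MutuallyUnbiased (B a) (B b)

def DefinedOver (K : Subfield ℂ) {m : ℕ} (B : Fin m → OrthonormalBasis (Fin 6) ℂ H6) : Prop :=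
  ∀ (a : Fin m) (j k l : Fin 6), (B a j) k * conj ((B a j) l) ∈ K

/-- rank one projector -/
def proj (v : H6) : Matrix (Fin 6) (Fin 6) ℂ := Matrix.of fun k l => v k * conj (v l)

lemma inner_eq (v w : H6) : inner ℂ v w = ∑ k, conj (v k) * w k := by
  rw [PiLp.inner_apply]
  refine Finset.sum_congr rfl fun k _ => ?_
  simp [mul_comm]

lemma trace_proj_mul (v w : H6) :
    Matrix.trace (proj v * proj w) = ((‖inner ℂ v w‖ ^ 2 : ℝ) : ℂ) := by
  have h1 : Matrix.trace (proj v * proj w) = (inner ℂ v w) * conj (inner ℂ v w) := by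
    rw [inner_eq, map_sum, Finset.sum_mul_sum]
    simp only [Matrix.trace, Matrix.diag, Matrix.mul_apply, proj, Matrix.of_apply]
    rw [Finset.sum_comm]
    refine Finset.sum_congr rfl fun k _ => Finset.sum_congr rfl fun l _ => ?_
    simp only [map_mul, Complex.conj_conj]
    ring
  rw [h1, Complex.mul_conj, Complex.normSq_eq_norm_sq]

lemma trace_proj (v : H6) : Matrix.trace (proj v) = ((‖v‖ ^ 2 : ℝ) : ℂ) := by
  have h : inner ℂ v v = ((‖v‖ : ℝ) : ℂ) ^ 2 := by
    simp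
  rw [inner_eq] at h
  simp only [Matrix.trace, Matrix.diag, proj, Matrix.of_apply]
  push_cast
  rw [← h]
  refine Finset.sum_congr rfl fun k _ => ?_
  ring


/-- index set of the 36 matrices -/
abbrev Idx : Type := Unit ⊕ (Fin 5 × Fin 7)

/-- the 36 matrices: identity and the traceless parts of five projectors from each basis -/
def MM (B : Fin 7 → OrthonormalBasis (Fin 6) ℂ H6) : Idx → Matrix (Fin 6) (Fin 6) ℂ
  | Sum.inl _ => 1
  | Sum.inr (j, a) => proj (B a j.castSucc) - (1 / 6 : ℂ) • (1 : Matrix (Fin 6) (Fin 6) ℂ)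

def B5 : Matrix (Fin 5) (Fin 5) ℂ := 1 - (1 / 6 : ℂ) • Matrix.of fun _ _ => (1 : ℂ)

def GG : Matrix Idx Idx ℂ :=
  Matrix.fromBlocks (Matrix.of fun _ _ : Unit => (6 : ℂ)) 0 0 (Matrix.blockDiagonal fun _ : Fin 7 => B5)

lemma det_B5 : B5.det = 1 / 6 := by
  have : B5 = 1 - (Matrix.replicateCol Unit fun _ : Fin 5 => (1 / 6 : ℂ)) *
      (Matrix.replicateRow Unit fun _ : Fin 5 => (1 : ℂ)) := by
    ext i j
    simp [B5, Matrix.mul_apply]
  rw [this, Matrix.det_one_sub_mul_comm]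
  simp [Matrix.mul_apply]
  norm_num

lemma det_GG : GG.det = 6 * (1 / 6) ^ 7 := by
  rw [GG, Matrix.det_fromBlocks_zero₂₁, Matrix.det_blockDiagonal]
  simp [det_B5]


lemma trace_sub_mul_sub (P Q : Matrix (Fin 6) (Fin 6) ℂ) (hP : P.trace = 1) (hQ : Q.trace = 1) :
    Matrix.trace ((P - (1 / 6 : ℂ) • (1 : Matrix (Fin 6) (Fin 6) ℂ)) *
      (Q - (1 / 6 : ℂ) • (1 : Matrix (Fin 6) (Fin 6) ℂ))) = Matrix.trace (P * Q) - 1 / 6 := by
  simp only [sub_mul, mul_sub, Matrix.trace_sub, Matrix.smul_mul, Matrix.mul_smul, Matrix.one_mul,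
    Matrix.mul_one, Matrix.trace_smul, hP, hQ, Matrix.trace_one, Fintype.card_fin, smul_eq_mul]
  norm_num

lemma trace_proj_basis (b : OrthonormalBasis (Fin 6) ℂ H6) (j : Fin 6) :
    Matrix.trace (proj (b j)) = 1 := by
  rw [trace_proj, b.orthonormal.1 j]
  norm_num

lemma gram (B : Fin 7 → OrthonormalBasis (Fin 6) ℂ H6) (hB : IsMUBFamily B) (s t : Idx) :
    Matrix.trace (MM B s * MM B t) = GG s t := by
  rcases s with s | ⟨j, a⟩ <;> rcases t with t | ⟨k, b⟩
  · simp [MM, GG]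
  · simp [MM, GG, Matrix.trace_sub, trace_proj_basis, Matrix.trace_smul]
  · simp [MM, GG, Matrix.trace_sub, trace_proj_basis, Matrix.trace_smul]
  · simp only [MM, GG, Matrix.fromBlocks_apply₂₂, Matrix.blockDiagonal_apply]
    rw [trace_sub_mul_sub _ _ (trace_proj_basis _ _) (trace_proj_basis _ _), trace_proj_mul]
    by_cases hab : a = b
    · subst hab
      by_cases hjk : j = k
      · subst hjk
        simp [B5, (B a).orthonormal.1]
      · have h0 : inner ℂ (B a j.castSucc) (B a k.castSucc) = 0 :=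
          (B a).orthonormal.2 (fun h => hjk (Fin.castSucc_injective _ h))
        simp [B5, h0, hjk]
    · rw [hB a b hab]
      simp [hab]


lemma sign_swap :
    Equiv.Perm.sign (Equiv.prodComm (Fin 6) (Fin 6) : Equiv.Perm (Fin 6 × Fin 6)) = -1 := by
  decide +kernel

lemma det_mem (K : Subfield ℂ) {n : Type} [Fintype n] [DecidableEq n] (T : Matrix n n ℂ)
    (hT : ∀ p q, T p q ∈ K) : T.det ∈ K := by
  rw [Matrix.det_apply']
  refine K.sum_mem fun σ _ => K.mul_mem ?_ (K.prod_mem fun i _ => hT _ _)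
  exact_mod_cast K.intCast_mem _

lemma MM_mem (K : Subfield ℂ) (B : Fin 7 → OrthonormalBasis (Fin 6) ℂ H6) (hK : DefinedOver K B)
    (s : Idx) (k l : Fin 6) : MM B s k l ∈ K := by
  have h1 : ∀ k l : Fin 6, (1 : Matrix (Fin 6) (Fin 6) ℂ) k l ∈ K := by
    intro k l
    by_cases h : k = l
    · rw [h, Matrix.one_apply_eq]; exact K.one_mem
    · rw [Matrix.one_apply_ne h]; exact K.zero_mem
  rcases s with s | ⟨j, a⟩
  · exact h1 k l
  · simp only [MM, Matrix.sub_apply, Matrix.smul_apply, smul_eq_mul, proj, Matrix.of_apply]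
    refine K.sub_mem (hK _ _ _ _) (K.mul_mem ?_ (h1 k l))
    exact K.div_mem K.one_mem (by exact_mod_cast natCast_mem K 6)

theorem I_mem_of_seven (K : Subfield ℂ) (B : Fin 7 → OrthonormalBasis (Fin 6) ℂ H6)
    (hB : IsMUBFamily B) (hK : DefinedOver K B) : Complex.I ∈ K := by
  classical
  let e : (Fin 6 × Fin 6) ≃ Idx := Fintype.equivOfCardEq (by simp)
  let T : Matrix (Fin 6 × Fin 6) (Fin 6 × Fin 6) ℂ := Matrix.of fun p q => MM B (e p) q.1 q.2
  let σ : Equiv.Perm (Fin 6 × Fin 6) := Equiv.prodComm (Fin 6) (Fin 6)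
  have hmul : T * (T.submatrix id σ)ᵀ = GG.submatrix e e := by
    ext p p'
    rw [Matrix.submatrix_apply, ← gram B hB]
    simp only [Matrix.mul_apply, Matrix.transpose_apply, Matrix.submatrix_apply, id, T,
      Matrix.of_apply, Matrix.trace, Matrix.diag, Fintype.sum_prod_type, σ, Equiv.prodComm_apply,
      Prod.swap]
  have hdet : T.det * (-1 * T.det) = 6 * (1 / 6) ^ 7 := by
    have := congrArg Matrix.det hmul
    rw [Matrix.det_mul, Matrix.det_transpose, Matrix.det_permute', Matrix.det_submatrix_equiv_self,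
      det_GG, sign_swap] at this
    simpa using this
  have hTK : T.det ∈ K := det_mem K T fun p q => MM_mem K B hK _ _ _
  have h216 : (216 : ℂ) ∈ K := by exact_mod_cast natCast_mem K 216
  have hsq : (216 * T.det - Complex.I) * (216 * T.det + Complex.I) = 0 := by
    have hI : Complex.I * Complex.I = -1 := Complex.I_mul_I
    have : (216 * T.det - Complex.I) * (216 * T.det + Complex.I)
        = -(46656 * (T.det * (-1 * T.det))) - Complex.I * Complex.I := by ring
    rw [this, hdet, hI]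
    norm_num
  rcases mul_eq_zero.mp hsq with h | h
  · have : Complex.I = 216 * T.det := by linear_combination -h
    rw [this]
    exact K.mul_mem h216 hTK
  · have : Complex.I = -(216 * T.det) := by linear_combination h
    rw [this]
    exact K.neg_mem (K.mul_mem h216 hTK)


/-- the three-vertex Bargmann invariant written through projector entries -/
lemma triple_eq (b c e : H6) :
    ∑ k, ∑ l, ∑ m, (b k * conj (b l)) * (c l * conj (c m)) * (e m * conj (e k))
      = inner ℂ b c * inner ℂ c e * inner ℂ e b := by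
  rw [inner_eq, inner_eq, inner_eq, Finset.mul_sum]
  refine Finset.sum_congr rfl fun k _ => ?_
  rw [Finset.sum_mul_sum, Finset.sum_mul]
  refine Finset.sum_congr rfl fun l _ => ?_
  rw [Finset.sum_mul]
  refine Finset.sum_congr rfl fun m _ => ?_
  ring

theorem norm_six_of_three (K : Subfield ℂ) {m : ℕ} (hm : 3 ≤ m)
    (B : Fin m → OrthonormalBasis (Fin 6) ℂ H6)
    (hB : IsMUBFamily B) (hK : DefinedOver K B) : ∃ z ∈ K, conj z ∈ K ∧ z * conj z = 6 := by
  let i0 : Fin m := ⟨0, by omega⟩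
  let i1 : Fin m := ⟨1, by omega⟩
  let i2 : Fin m := ⟨2, by omega⟩
  have h01 : i0 ≠ i1 := by simp [i0, i1, Fin.ext_iff]
  have h12 : i1 ≠ i2 := by simp [i1, i2, Fin.ext_iff]
  have h20 : i2 ≠ i0 := by simp [i0, i2, Fin.ext_iff]
  set b := B i0 0 with hb
  set c := B i1 0 with hc
  set e := B i2 0 with he
  have h36 : (36 : ℂ) ∈ K := by exact_mod_cast natCast_mem K 36
  have ht : inner ℂ b c * inner ℂ c e * inner ℂ e b ∈ K := by
    rw [← triple_eq]
    exact K.sum_mem fun k _ => K.sum_mem fun l _ => K.sum_mem fun m _ =>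
      K.mul_mem (K.mul_mem (hK _ _ _ _) (hK _ _ _ _)) (hK _ _ _ _)
  have ht' : inner ℂ e c * inner ℂ c b * inner ℂ b e ∈ K := by
    rw [← triple_eq]
    exact K.sum_mem fun k _ => K.sum_mem fun l _ => K.sum_mem fun m _ =>
      K.mul_mem (K.mul_mem (hK _ _ _ _) (hK _ _ _ _)) (hK _ _ _ _)
  have hconj : conj (inner ℂ b c * inner ℂ c e * inner ℂ e b)
      = inner ℂ e c * inner ℂ c b * inner ℂ b e := by
    simp only [map_mul, inner_conj_symm]
    ring
  have n1 : inner ℂ b c * conj (inner ℂ b c) = 1 / 6 := by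
    rw [Complex.mul_conj, Complex.normSq_eq_norm_sq, hB i0 i1 h01 0 0]; norm_num
  have n2 : inner ℂ c e * conj (inner ℂ c e) = 1 / 6 := by
    rw [Complex.mul_conj, Complex.normSq_eq_norm_sq, hB i1 i2 h12 0 0]; norm_num
  have n3 : inner ℂ e b * conj (inner ℂ e b) = 1 / 6 := by
    rw [Complex.mul_conj, Complex.normSq_eq_norm_sq, hB i2 i0 h20 0 0]; norm_num
  refine ⟨36 * (inner ℂ b c * inner ℂ c e * inner ℂ e b), K.mul_mem h36 ht, ?_, ?_⟩
  · rw [map_mul, hconj]
    have : conj (36 : ℂ) = 36 := by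
      simpa using Complex.conj_ofReal 36
    rw [this]
    exact K.mul_mem h36 ht'
  · have : conj (36 : ℂ) = 36 := by
      simpa using Complex.conj_ofReal 36
    simp only [map_mul, this]
    calc 36 * (inner ℂ b c * inner ℂ c e * inner ℂ e b) *
          (36 * (conj (inner ℂ b c) * conj (inner ℂ c e) * conj (inner ℂ e b)))
        = 1296 * ((inner ℂ b c * conj (inner ℂ b c)) * (inner ℂ c e * conj (inner ℂ c e)) *
            (inner ℂ e b * conj (inner ℂ e b))) := by ring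
      _ = 6 := by rw [n1, n2, n3]; norm_num


lemma zmod3_a : ∀ a b : ZMod 3, a ^ 2 + b ^ 2 = 0 → a = 0 ∧ b = 0 := by decide
lemma zmod3_b : ∀ a : ZMod 3, 2 * a ^ 2 = 0 → a = 0 := by decide
lemma zmod2_a : ∀ a b : ZMod 2, a ^ 2 - a * b + b ^ 2 = 0 → a = 0 ∧ b = 0 := by decide
lemma zmod2_b : ∀ a : ZMod 2, 3 * a ^ 2 = 0 → a = 0 := by decide

lemma int_descent1 : ∀ (n : ℕ) (x y z : ℤ), z.natAbs = n → x ^ 2 + y ^ 2 = 6 * z ^ 2 → z = 0 := by
  intro n
  induction n using Nat.strong_induction_on with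
  | _ n ih =>
    intro x y z hz h
    by_contra hz0
    have h3 : ((x : ZMod 3)) ^ 2 + (y : ZMod 3) ^ 2 = 0 := by
      have := congrArg (Int.cast : ℤ → ZMod 3) h
      push_cast at this
      rw [this]
      have : (6 : ZMod 3) = 0 := by decide
      rw [this, zero_mul]
    obtain ⟨hx, hy⟩ := zmod3_a _ _ h3
    obtain ⟨x', rfl⟩ := (ZMod.intCast_zmod_eq_zero_iff_dvd x 3).mp hx
    obtain ⟨y', rfl⟩ := (ZMod.intCast_zmod_eq_zero_iff_dvd y 3).mp hy
    have h' : 3 * (x' ^ 2 + y' ^ 2) = 2 * z ^ 2 := by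
      push_cast at h
      linarith
    have h3z : 2 * (z : ZMod 3) ^ 2 = 0 := by
      have := congrArg (Int.cast : ℤ → ZMod 3) h'
      push_cast at this
      rw [← this]
      have : (3 : ZMod 3) = 0 := by decide
      rw [this, zero_mul]
    obtain ⟨z', rfl⟩ := (ZMod.intCast_zmod_eq_zero_iff_dvd z 3).mp (zmod3_b _ h3z)
    have h'' : x' ^ 2 + y' ^ 2 = 6 * z' ^ 2 := by
      push_cast at h'
      linarith
    have hz' : z' ≠ 0 := by
      rintro rfl
      exact hz0 (by simp)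
    have hlt : z'.natAbs < n := by
      rw [← hz]
      push_cast
      rw [Int.natAbs_mul]
      have : 0 < z'.natAbs := Int.natAbs_pos.mpr hz'
      simp
      omega
    exact hz' (ih _ hlt x' y' z' rfl h'')

lemma int_descent2 : ∀ (n : ℕ) (x y z : ℤ), z.natAbs = n →
    x ^ 2 - x * y + y ^ 2 = 6 * z ^ 2 → z = 0 := by
  intro n
  induction n using Nat.strong_induction_on with
  | _ n ih =>
    intro x y z hz h
    by_contra hz0
    have h3 : ((x : ZMod 2)) ^ 2 - (x : ZMod 2) * (y : ZMod 2) + (y : ZMod 2) ^ 2 = 0 := by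
      have := congrArg (Int.cast : ℤ → ZMod 2) h
      push_cast at this
      rw [this]
      have : (6 : ZMod 2) = 0 := by decide
      rw [this, zero_mul]
    obtain ⟨hx, hy⟩ := zmod2_a _ _ h3
    obtain ⟨x', rfl⟩ := (ZMod.intCast_zmod_eq_zero_iff_dvd x 2).mp hx
    obtain ⟨y', rfl⟩ := (ZMod.intCast_zmod_eq_zero_iff_dvd y 2).mp hy
    have h' : 2 * (x' ^ 2 - x' * y' + y' ^ 2) = 3 * z ^ 2 := by
      push_cast at h
      linarith
    have h3z : 3 * (z : ZMod 2) ^ 2 = 0 := by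
      have := congrArg (Int.cast : ℤ → ZMod 2) h'
      push_cast at this
      rw [← this]
      have : (2 : ZMod 2) = 0 := by decide
      rw [this, zero_mul]
    obtain ⟨z', rfl⟩ := (ZMod.intCast_zmod_eq_zero_iff_dvd z 2).mp (zmod2_b _ h3z)
    have h'' : x' ^ 2 - x' * y' + y' ^ 2 = 6 * z' ^ 2 := by
      push_cast at h'
      linarith
    have hz' : z' ≠ 0 := by
      rintro rfl
      exact hz0 (by simp)
    have hlt : z'.natAbs < n := by
      rw [← hz]
      push_cast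
      rw [Int.natAbs_mul]
      have : 0 < z'.natAbs := Int.natAbs_pos.mpr hz'
      simp
      omega
    exact hz' (ih _ hlt x' y' z' rfl h'')

lemma no_rat1 (a b : ℚ) : a ^ 2 + b ^ 2 ≠ 6 := by
  intro h
  have hda : (a.den : ℚ) ≠ 0 := by exact_mod_cast a.den_nz
  have hdb : (b.den : ℚ) ≠ 0 := by exact_mod_cast b.den_nz
  have key : (a.num * b.den) ^ 2 + (b.num * a.den) ^ 2 = 6 * ((a.den : ℤ) * b.den) ^ 2 := by
    have ha : a = a.num / a.den := (Rat.num_div_den a).symm
    have hb : b = b.num / b.den := (Rat.num_div_den b).symm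
    rw [ha, hb] at h
    field_simp at h
    have h' : ((a.num : ℚ) * b.den) ^ 2 + (b.num * a.den) ^ 2
      = 6 * ((a.den : ℚ) * b.den) ^ 2 := by linarith
    exact_mod_cast h'
  have := int_descent1 _ _ _ _ rfl key
  have h1 : (a.den : ℤ) ≠ 0 := by exact_mod_cast a.den_nz
  have h2 : (b.den : ℤ) ≠ 0 := by exact_mod_cast b.den_nz
  exact (mul_ne_zero h1 h2) this

lemma no_rat2 (a b : ℚ) : a ^ 2 - a * b + b ^ 2 ≠ 6 := by
  intro h
  have hda : (a.den : ℚ) ≠ 0 := by exact_mod_cast a.den_nz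
  have hdb : (b.den : ℚ) ≠ 0 := by exact_mod_cast b.den_nz
  have key : (a.num * b.den) ^ 2 - (a.num * b.den) * (b.num * a.den) + (b.num * a.den) ^ 2
      = 6 * ((a.den : ℤ) * b.den) ^ 2 := by
    have ha : a = a.num / a.den := (Rat.num_div_den a).symm
    have hb : b = b.num / b.den := (Rat.num_div_den b).symm
    rw [ha, hb] at h
    field_simp at h
    have h' : ((a.num : ℚ) * b.den) ^ 2 - (a.num * b.den) * (b.num * a.den) + (b.num * a.den) ^ 2
      = 6 * ((a.den : ℚ) * b.den) ^ 2 := by linarith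
    exact_mod_cast h'
  have := int_descent2 _ _ _ _ rfl key
  have h1 : (a.den : ℤ) ≠ 0 := by exact_mod_cast a.den_nz
  have h2 : (b.den : ℤ) ≠ 0 := by exact_mod_cast b.den_nz
  exact (mul_ne_zero h1 h2) this


/-- primitive cube root of unity -/
def omega : ℂ := -1 / 2 + (Real.sqrt 3 / 2 : ℝ) * Complex.I

lemma omega_sq : omega ^ 2 = -1 - omega := by
  have h3 : ((Real.sqrt 3 : ℝ) : ℂ) ^ 2 = 3 := by
    rw [← Complex.ofReal_pow, Real.sq_sqrt (by norm_num)]; norm_num
  have hI : Complex.I ^ 2 = -1 := Complex.I_sq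
  simp only [omega]
  push_cast
  linear_combination (1 / 4 : ℂ) * Complex.I ^ 2 * h3 + (3 / 4 : ℂ) * hI

lemma conj_omega : conj omega = -1 - omega := by
  simp only [omega, map_add, map_mul, Complex.conj_ofReal, Complex.conj_I, map_div₀, map_neg, map_one]
  have : conj (2 : ℂ) = 2 := by simpa using Complex.conj_ofReal 2
  rw [this]
  ring

lemma mem_closure_I {z : ℂ} (hz : z ∈ Subfield.closure ({Complex.I} : Set ℂ)) :
    ∃ a b : ℚ, z = a + b * Complex.I := by
  have hI : Complex.I * Complex.I = -1 := Complex.I_mul_I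
  induction hz using Subfield.closure_induction with
  | mem x hx => exact ⟨0, 1, by simp [Set.mem_singleton_iff.mp hx]⟩
  | one => exact ⟨1, 0, by simp⟩
  | add x y _ _ hx hy =>
    obtain ⟨a, b, rfl⟩ := hx
    obtain ⟨c, d, rfl⟩ := hy
    exact ⟨a + c, b + d, by push_cast; ring⟩
  | neg x _ hx =>
    obtain ⟨a, b, rfl⟩ := hx
    exact ⟨-a, -b, by push_cast; ring⟩
  | inv x _ hx =>
    obtain ⟨a, b, rfl⟩ := hx
    by_cases h0 : (a : ℂ) + b * Complex.I = 0
    · exact ⟨0, 0, by simp [h0]⟩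
    · have hn : (a : ℂ) ^ 2 + (b : ℂ) ^ 2 ≠ 0 := by
        intro h
        apply h0
        have : ((a : ℂ) + b * Complex.I) * ((a : ℂ) - b * Complex.I) = 0 := by
          linear_combination h - (b : ℂ) ^ 2 * hI
        have hq : a ^ 2 + b ^ 2 = 0 := by exact_mod_cast h
        have ha : a = 0 := by nlinarith [sq_nonneg a, sq_nonneg b]
        have hb : b = 0 := by nlinarith [sq_nonneg a, sq_nonneg b]
        simp [ha, hb]
      refine ⟨a / (a ^ 2 + b ^ 2), -b / (a ^ 2 + b ^ 2), ?_⟩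
      apply inv_eq_of_mul_eq_one_right
      push_cast
      field_simp
      linear_combination -(b : ℂ) ^ 2 * hI
  | mul x y _ _ hx hy =>
    obtain ⟨a, b, rfl⟩ := hx
    obtain ⟨c, d, rfl⟩ := hy
    exact ⟨a * c - b * d, a * d + b * c, by push_cast; linear_combination (b : ℂ) * d * hI⟩


lemma mem_closure_omega {z : ℂ} (hz : z ∈ Subfield.closure ({omega} : Set ℂ)) :
    ∃ a b : ℚ, z = a + b * omega := by
  have hw : omega ^ 2 = -1 - omega := omega_sq
  induction hz using Subfield.closure_induction with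
  | mem x hx => exact ⟨0, 1, by simp [Set.mem_singleton_iff.mp hx]⟩
  | one => exact ⟨1, 0, by simp⟩
  | add x y _ _ hx hy =>
    obtain ⟨a, b, rfl⟩ := hx
    obtain ⟨c, d, rfl⟩ := hy
    exact ⟨a + c, b + d, by push_cast; ring⟩
  | neg x _ hx =>
    obtain ⟨a, b, rfl⟩ := hx
    exact ⟨-a, -b, by push_cast; ring⟩
  | inv x _ hx =>
    obtain ⟨a, b, rfl⟩ := hx
    by_cases h0 : (a : ℂ) + b * omega = 0
    · exact ⟨0, 0, by simp [h0]⟩
    · have hn : (a : ℂ) ^ 2 - a * b + (b : ℂ) ^ 2 ≠ 0 := by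
        intro h
        apply h0
        have hq : a ^ 2 - a * b + b ^ 2 = 0 := by exact_mod_cast h
        have hb : b = 0 := by nlinarith [sq_nonneg (a - b / 2), sq_nonneg b]
        have ha : a = 0 := by nlinarith [sq_nonneg (a - b / 2), sq_nonneg b]
        simp [ha, hb]
      refine ⟨(a - b) / (a ^ 2 - a * b + b ^ 2), -b / (a ^ 2 - a * b + b ^ 2), ?_⟩
      apply inv_eq_of_mul_eq_one_right
      have hprod : ((a : ℂ) + b * omega) * (((a : ℂ) - b) - b * omega)
          = (a : ℂ) ^ 2 - a * b + (b : ℂ) ^ 2 := by linear_combination -(b : ℂ) ^ 2 * hw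
      push_cast
      rw [show ((a : ℂ) + b * omega) * (((a : ℂ) - b) / ((a : ℂ) ^ 2 - a * b + (b : ℂ) ^ 2)
          + -(b : ℂ) / ((a : ℂ) ^ 2 - a * b + (b : ℂ) ^ 2) * omega)
          = (((a : ℂ) + b * omega) * (((a : ℂ) - b) - b * omega))
            / ((a : ℂ) ^ 2 - a * b + (b : ℂ) ^ 2) from by ring, hprod, div_self hn]
  | mul x y _ _ hx hy =>
    obtain ⟨a, b, rfl⟩ := hx
    obtain ⟨c, d, rfl⟩ := hy
    exact ⟨a * c - b * d, a * d + b * c - b * d, by push_cast; linear_combination (b : ℂ) * d * hw⟩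


/-- Arithmetic (Bruck-Ryser type) obstructions for mutually unbiased bases in dimension six. -/
theorem result :
    (∀ (K : Subfield ℂ) (B : Fin 7 → OrthonormalBasis (Fin 6) ℂ H6),
        IsMUBFamily B → DefinedOver K B →
        Complex.I ∈ K ∧ ∃ a b : ℝ, (a : ℂ) ∈ K ∧ (b : ℂ) ∈ K ∧ a ^ 2 + b ^ 2 = 6) ∧
    (∀ (K : Subfield ℂ) (m : ℕ) (B : Fin m → OrthonormalBasis (Fin 6) ℂ H6),
        3 ≤ m → IsMUBFamily B → DefinedOver K B → ∃ z ∈ K, conj z ∈ K ∧ z * conj z = 6) ∧
    (∀ K : Subfield ℂ, (∀ x : ℝ, (x : ℂ) ∈ K → ∃ q : ℚ, x = q) →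
        ¬ ∃ B : Fin 7 → OrthonormalBasis (Fin 6) ℂ H6, IsMUBFamily B ∧ DefinedOver K B) ∧
    (¬ ∃ B : Fin 3 → OrthonormalBasis (Fin 6) ℂ H6,
        IsMUBFamily B ∧ DefinedOver (Subfield.closure {Complex.I}) B) ∧
    (¬ ∃ B : Fin 3 → OrthonormalBasis (Fin 6) ℂ H6,
        IsMUBFamily B ∧ DefinedOver (Subfield.closure {omega}) B) := by
  have part1 : ∀ (K : Subfield ℂ) (B : Fin 7 → OrthonormalBasis (Fin 6) ℂ H6),
      IsMUBFamily B → DefinedOver K B →
      Complex.I ∈ K ∧ ∃ a b : ℝ, (a : ℂ) ∈ K ∧ (b : ℂ) ∈ K ∧ a ^ 2 + b ^ 2 = 6 := by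
    intro K B hB hK
    have hI := I_mem_of_seven K B hB hK
    obtain ⟨z, hz, hz', hzz⟩ := norm_six_of_three K (by norm_num) B hB hK
    have h2 : (2 : ℂ) ∈ K := by exact_mod_cast natCast_mem K 2
    refine ⟨hI, z.re, z.im, ?_, ?_, ?_⟩
    · have : (z.re : ℂ) = (z + conj z) / 2 := by
        rw [Complex.add_conj]; push_cast; ring
      rw [this]
      exact K.div_mem (K.add_mem hz hz') h2
    · have : (z.im : ℂ) = (z - conj z) / (2 * Complex.I) := by
        rw [Complex.sub_conj]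
        have hI0 : Complex.I ≠ 0 := Complex.I_ne_zero
        push_cast
        field_simp
      rw [this]
      exact K.div_mem (K.sub_mem hz hz') (K.mul_mem h2 hI)
    · rw [Complex.mul_conj, Complex.normSq_apply] at hzz
      have : z.re * z.re + z.im * z.im = 6 := by exact_mod_cast hzz
      nlinarith
  refine ⟨part1, fun K m B hm hB hK => norm_six_of_three K hm B hB hK, ?_, ?_, ?_⟩
  · rintro K hQ ⟨B, hB, hK⟩
    obtain ⟨_, a, b, ha, hb, hab⟩ := part1 K B hB hK
    obtain ⟨p, rfl⟩ := hQ a ha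
    obtain ⟨q, rfl⟩ := hQ b hb
    exact no_rat1 p q (by exact_mod_cast hab)
  · rintro ⟨B, hB, hK⟩
    obtain ⟨z, hz, _, hzz⟩ := norm_six_of_three _ le_rfl B hB hK
    obtain ⟨a, b, rfl⟩ := mem_closure_I hz
    apply no_rat1 a b
    have hI : Complex.I * Complex.I = -1 := Complex.I_mul_I
    have h1 : conj ((a : ℂ) + b * Complex.I) = (a : ℂ) - b * Complex.I := by
      simp only [map_add, map_mul, Complex.conj_I, map_ratCast]
      ring
    rw [h1] at hzz
    have h2 : ((a : ℂ)) ^ 2 + (b : ℂ) ^ 2 = 6 := by linear_combination hzz + (b : ℂ) ^ 2 * hI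
    exact_mod_cast h2
  · rintro ⟨B, hB, hK⟩
    obtain ⟨z, hz, _, hzz⟩ := norm_six_of_three _ le_rfl B hB hK
    obtain ⟨a, b, rfl⟩ := mem_closure_omega hz
    apply no_rat2 a b
    have hw : omega ^ 2 = -1 - omega := omega_sq
    have h1 : conj ((a : ℂ) + b * omega) = (a : ℂ) + b * (-1 - omega) := by
      simp only [map_add, map_mul, conj_omega, map_ratCast]
    rw [h1] at hzz
    have h2 : ((a : ℂ)) ^ 2 - a * b + (b : ℂ) ^ 2 = 6 := by
      linear_combination hzz + (b : ℂ) ^ 2 * hw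
    exact_mod_cast h2

end

end Vale.Agent.Results.P355.FieldOfDefinition
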